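import Vale.Agent.P097F.Top1
import Vale.Agent.P097W2.Env
import Vale.Agent.P097Mo.Defs
import Vale.Agent.P097F.D.Defs
import Vale.Agent.P097F.NC.Defs
import Vale.Agent.P097F.T.Defs

/-!
# P097F: the circle machine, common definitions and the statements of the blocks

Window units: `y = s + r i + η u * z`, lower half plane, `ε = u / η u`.
Points of the two-variable families are `q = (W, x)`.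
-/

set_option linter.all false

noncomputable section

namespace Vale.Agent.P097F

open Filter Topology Set Metric Complex MeasureTheory Vale.Agent.P097T
open Vale.Agent.P097D (Lo Decay)
open Vale.Agent.P097N (EE)
open Vale.Agent.P097W (Envl)

/-- the data of a counterexample, bundled -/
structure DD where
  r : ℝ
  c : ℝ
  κ : ℝ
  u₀ : ℝ
  p : ℕ
  θ : ℂ → ℂ
  H : ℂ → ℂ
  Q : ℂ → ℂ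
  Y₀ : ℂ × ℂ → ℂ
  η : ℝ → ℝ
  Y : ℝ → ℂ × ℂ → ℂ
  dat : Dat r c κ u₀ p θ H Q Y₀ η Y

namespace DD

variable (X : DD)

/-- the point of the strip with window coordinate `z` -/
def wy (u s : ℝ) (z : ℂ) : ℂ := s + X.r * I + X.η u * z

def θw (u s : ℝ) (z : ℂ) : ℂ := X.θ (X.wy u s z)

def hw (u s : ℝ) (z : ℂ) : ℂ := X.H (X.wy u s z)

def Qw (u s : ℝ) (z : ℂ) : ℂ := (X.η u : ℂ) ^ 2 * X.Q (X.wy u s z)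

def cw (u : ℝ) : ℂ := X.c * (X.η u : ℂ) ^ 3

def Uw (u s : ℝ) : Set ℂ := {z | X.wy u s z ∈ Strip X.r}

/-- the step in window units -/
def ep (u : ℝ) : ℝ := u / X.η u

def gw (u s : ℝ) (z : ℂ) : ℂ := u * deriv X.θ (X.wy u s z)

/-- the true maximal leaf near the step `v`, in window units -/
def Yw (u s v : ℝ) (q : ℂ × ℂ) : ℂ :=
  (X.Y (u * v) (X.wy u s q.2, u * q.1) - s - X.r * I) / X.η u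

/-- the depth of the top of the true leaf of step `v`, in window units -/
def pw (u v : ℝ) : ℝ := X.η (u * v) / X.η u

/-- a local peak of the envelope `a` -/
def Pk (a : ℝ → ℝ) (u : ℝ) : Prop := u ∈ Ioo 0 X.u₀ ∧ 0 < X.η u ∧ a (X.η u) * u ≤ 2 * X.η u

/-- circle windows have positive proportion at high peaks -/
def Circ (a : ℝ → ℝ) : Prop := ∃ φ δ C₁ : ℝ, 0 < φ ∧ 0 < δ ∧ 1 ≤ C₁ ∧ ∀ Λ : ℝ, ∃ u, X.Pk a u ∧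
  Λ * u ≤ X.η u ∧ ENNReal.ofReal φ ≤ volume {s : ℝ | s ∈ Ico (0 : ℝ) 1 ∧ ∃ z ∈ X.Uw u s,
    |z.re| ≤ C₁ ∧ 1 / C₁ ≤ -z.im ∧ -z.im ≤ C₁ ∧ δ ≤ ‖X.gw u s z‖}

/-- a good place of the window sequence -/
def Pl (a : ℝ → ℝ) (j : ℕ) (M : ℝ) (𝒰 : Ultrafilter ℕ) (u s : ℕ → ℝ) (k : ℤ) : Prop :=
  ∀ᶠ n in (𝒰 : Filter ℕ),
    P097W.Good X.r (deriv X.θ) X.Q a (X.η (u n)) j M (s n + X.η (u n) * k)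

end DD

/-- the places `P` have density at least one half -/
def Dens (P : ℤ → Prop) : Prop :=
  ∀ t : ℕ, ∃ J : Finset ℤ, (∀ k ∈ J, |k| ≤ t ∧ P k) ∧ t ≤ J.card

/-- a sequence of circle windows with limit `g` -/
structure Win (X : DD) (a : ℝ → ℝ) (j : ℕ) (M : ℝ) (𝒰 : Ultrafilter ℕ) (u s : ℕ → ℝ)
    (g : ℂ → ℂ) : Prop where
  le : (𝒰 : Filter ℕ) ≤ atTop
  pk : ∀ n, X.Pk a (u n)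
  ep0 : Tendsto (fun n => X.ep (u n)) atTop (𝓝 0)
  seq : P097Mo.Seq 𝒰 (fun n => (X.ep (u n) : ℂ)) (fun n => X.θw (u n) (s n))
    (fun n => X.hw (u n) (s n)) (fun n => X.Qw (u n) (s n)) (fun n => X.cw (u n))
    (fun n => X.Uw (u n) (s n)) g (Lo 0)
  ne : ∃ y ∈ Lo 0, g y ≠ 0
  p0 : X.Pl a j M 𝒰 u s 0
  dens : Dens (X.Pl a j M 𝒰 u s)
  fe : T.FinE g (1 + I)

/-- the limit curve with its good places -/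
structure Lim (m j : ℕ) (M a₀ c₀ : ℝ) (g : ℂ → ℂ) (P : ℤ → Prop) : Prop where
  dg : DifferentiableOn ℂ g (Lo 0)
  sz : D.SZ g
  ap : ∀ k, P k → NC.APri (fun y => g (y + k)) m j M
  act : NC.Act g a₀ c₀
  p0 : P 0
  dens : Dens P
  fe : T.FinE g (1 + I)

/-- continuous convergence in two variables -/
def CC2 (l : Filter ℕ) (F : ℕ → ℂ × ℂ → ℂ) (f : ℂ × ℂ → ℂ) (O : Set (ℂ × ℂ)) : Prop :=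
  ∀ q ∈ O, ∀ v : ℕ → ℂ × ℂ, Tendsto v l (𝓝 q) → Tendsto (fun n => F n (v n)) l (𝓝 (f q))

/-- the box of half width `R` at the place `a` between the depths `t₁` and `t₂` -/
def Bx (a R t₁ t₂ : ℝ) : Set ℂ := D.Rc (a - R) (a + R) (-t₂) (-t₁)

/-- the column of half width `R` at the place `a` below the depth `t₁` -/
def Cl (a R t₁ : ℝ) : Set ℂ := {x | a - R < x.re ∧ x.re < a + R ∧ x.im < -t₁}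

/-- the disc of steps -/
def Ud (W₁ : ℝ) : Set ℂ := ball (2 * W₁ : ℂ) (3 / 2 * W₁)

/-- the deep charts `Z n` of the true family at the place `a` and their limit `Z₀` -/
structure Deep (X : DD) (𝒰 : Ultrafilter ℕ) (u s : ℕ → ℝ) (g : ℂ → ℂ) (W₁ a R t₁ : ℝ)
    (Z : ℕ → ℂ × ℂ → ℂ) (Z₀ : ℂ × ℂ → ℂ) : Prop where
  tr : ∀ᶠ n in (𝒰 : Filter ℕ),
    AnalyticOnNhd ℂ (Z n) (Ud W₁ ×ˢ Bx a R t₁ (X.r / (2 * X.η (u n)))) ∧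
    (∀ q ∈ Ud W₁ ×ˢ Bx a R t₁ (X.r / (2 * X.η (u n))), ‖Z n q - q.2‖ ≤ 1) ∧
    ∀ v : ℝ, (v : ℂ) ∈ Ud W₁ → ∀ x ∈ Bx a R t₁ (X.r / (2 * X.η (u n))),
      x.im < -X.pw (u n) v → Z n =ᶠ[𝓝 ((v : ℂ), x)] X.Yw (u n) (s n) v
  fam : D.Fam g Z₀ (Ud W₁ ×ˢ Cl a R t₁)
  bd : ∀ q ∈ Ud W₁ ×ˢ Cl a R t₁, ‖Z₀ q - q.2‖ ≤ 1
  cc : CC2 𝒰 Z Z₀ (Ud W₁ ×ˢ Cl a R t₁)

/-- deep charts exist at the place `a` for all widths -/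
def Base (X : DD) (𝒰 : Ultrafilter ℕ) (u s : ℕ → ℝ) (g : ℂ → ℂ) (W₁ T₀ a : ℝ) : Prop :=
  ∀ R t₁ : ℝ, 0 < R → 0 < t₁ → T₀ ^ 4 * (1 + R) ≤ t₁ ^ 4 → ∃ Z Z₀, Deep X 𝒰 u s g W₁ a R t₁ Z Z₀

/-- the wide anchor of a leaf at the place `a` -/
def WA (Y : ℂ → ℂ) (a T₀ : ℝ) : Prop := ∀ x : ℂ, x.im < 0 →
  T₀ ^ 4 * (2 + |x.re - a|) < x.im ^ 4 → ‖Y x - x‖ ≤ 1

/-- the wedge below the touching parabola -/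
def Wd (a L T ρ K C v H b : ℝ) : Set (ℂ × ℂ) := {q | q.1 ∈ ball (v : ℂ) ρ ∧ |q.2.re - a| < L ∧
  -T < q.2.im ∧ q.2.im < H - b * (q.1.re - v) - K * (q.1.re - v) ^ 2 - C * |q.1.im|}

/-- the true family on a wedge; no bidisc at a top point continues it -/
structure Tru (ε : ℝ) (θ h : ℂ → ℂ) (U : Set ℂ) (O : Set (ℂ × ℂ)) (v H : ℝ) (F : ℂ × ℂ → ℂ) :
    Prop where
  an : AnalyticOnNhd ℂ F O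
  mem : MapsTo F O U
  law : ∀ W x : ℂ, (W, x - ε * W) ∈ O → (W, x) ∈ O → (W, x + ε * W) ∈ O →
    EE θ h (F (W, x - ε * W)) (F (W, x)) (F (W, x + ε * W)) = 0
  top : ∀ (x₁ : ℂ) (δ : ℝ) (F₀ F₁ : ℂ × ℂ → ℂ), x₁.im = H → 0 < δ →
    AnalyticOnNhd ℂ F₀ (ball (v : ℂ) δ ×ˢ ball x₁ δ) →
    AnalyticOnNhd ℂ F₁ (ball (v : ℂ) δ ×ˢ ball x₁ δ) →
    MapsTo F₀ (ball (v : ℂ) δ ×ˢ ball x₁ δ) U → MapsTo F₁ (ball (v : ℂ) δ ×ˢ ball x₁ δ) U →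
    (∀ x ∈ ball x₁ δ, x.im < H → ((v : ℂ), x) ∈ O ∧ ((v : ℂ), x + ε * v) ∈ O ∧
      F₀ =ᶠ[𝓝 ((v : ℂ), x)] F ∧ F₁ =ᶠ[𝓝 ((v : ℂ), x)] fun q => F (q.1, q.2 + ε * q.1)) → False

/-- the true families on the wedges at the touching steps `v n`, and their limit -/
structure Loc (𝒰 : Ultrafilter ℕ) (ε : ℕ → ℝ) (θ h : ℕ → ℂ → ℂ) (U : ℕ → Set ℂ)
    (a L T ρ K C : ℝ) (v H b : ℕ → ℝ) (v₀ H₀ b₀ : ℝ) (F : ℕ → ℂ × ℂ → ℂ) (F₀ : ℂ × ℂ → ℂ) :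
    Prop where
  ρ0 : 0 < ρ
  K0 : 0 ≤ K
  C1 : 1 ≤ C
  bC : ∀ n, |b n| ≤ C
  lv : Tendsto v 𝒰 (𝓝 v₀)
  lH : Tendsto H 𝒰 (𝓝 H₀)
  lb : Tendsto b 𝒰 (𝓝 b₀)
  hi : -T + 2 ≤ H₀ - 2 * C * ρ - K * ρ ^ 2
  tr : ∀ᶠ n in (𝒰 : Filter ℕ),
    Tru (ε n) (θ n) (h n) (U n) (Wd a L T ρ K C (v n) (H n) (b n)) (v n) (H n) (F n)
  an : AnalyticOnNhd ℂ F₀ (Wd a L T ρ K C v₀ H₀ b₀)
  lo : ∀ q ∈ Wd a L T ρ K C v₀ H₀ b₀, (F₀ q).im < 0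
  cc : CC2 𝒰 F F₀ (Wd a L T ρ K C v₀ H₀ b₀)

/-- the data of block D at the place `a` -/
def Ed (g : ℂ → ℂ) (Z₀ : ℂ × ℂ → ℂ) (W₁ a L T : ℝ) : D.Dat :=
  ⟨g, Z₀, Ud W₁, a - L, a + L, -T, -T + 1⟩

/-! ## The blocks -/

/-- DICH: small turning or circle windows -/
def Spec_DICH : Prop := ∀ X : DD, ∃ N₀ : ℕ, ∀ N ≥ N₀, ∀ a, Envl X.η X.u₀ X.p N a →
  P097O.THB X.r (deriv X.θ) ∨ X.Circ a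

/-- A: selection of the windows -/
def Spec_A : Prop := ∀ (X : DD) (j : ℕ), 1 ≤ j → ∃ N₀ : ℕ, ∀ N ≥ N₀, ∀ a,
  Envl X.η X.u₀ X.p N a → X.Circ a → ∃ M 𝒰 u s g, Win X a j M 𝒰 u s g

/-- LIM: the limit curve -/
def Spec_LIM : Prop := ∀ X : DD, ∃ a₀ c₀ : ℝ, 0 ≤ a₀ ∧ 0 < c₀ ∧ ∀ j N : ℕ, 8 ≤ j → 2 * j ≤ N →
  ∀ a M 𝒰 u s g, Envl X.η X.u₀ X.p N a → Win X a (2 * j) M 𝒰 u s g →
    ∃ M', Lim (X.p + 1) j M' a₀ c₀ g (X.Pl a (2 * j) M 𝒰 u s)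

/-- B: no exponential decay -/
def Spec_B : Prop := ∀ X : DD, ∃ j₀ : ℕ, ∀ j ≥ j₀, ∀ N ≥ j, ∀ a M 𝒰 u s g,
  Envl X.η X.u₀ X.p N a → Win X a j M 𝒰 u s g → ∀ τ : ℝ, 0 < τ → ¬ Decay g τ

/-- BASE: the deep charts at the good places -/
def Spec_BASE : Prop := ∀ X : DD, ∃ j₀ : ℕ, ∀ j ≥ j₀, ∀ N ≥ j, ∀ a M 𝒰 u s g,
  Envl X.η X.u₀ X.p N a → Win X a j M 𝒰 u s g → ∃ W₂ : ℝ, ∀ W₁ ≥ W₂, ∀ k : ℤ,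
    X.Pl a j M 𝒰 u s k → Base X 𝒰 u s g W₁ (W₁ ^ 3) k

/-- LEAF: the limit of true leaves -/
def Spec_LEAF : Prop := ∀ (X : DD) (N j : ℕ) a M 𝒰 u s g (W₁ W p : ℝ) (v : ℕ → ℝ), 8 ≤ N →
  Envl X.η X.u₀ X.p N a → Win X a j M 𝒰 u s g → 100 ≤ W₁ → W₁ ≤ W → W ≤ 3 * W₁ →
  Tendsto v 𝒰 (𝓝 W) → Tendsto (fun n => X.pw (u n) (v n)) 𝒰 (𝓝 p) →
  Base X 𝒰 u s g W₁ (W₁ ^ 3) 0 → 0 ≤ p ∧ p ≤ W₁ ^ 3 ∧ ∃ Y, NC.Lf g W p Y ∧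
    ∀ k R t₁ Z Z₀, Deep X 𝒰 u s g W₁ k R t₁ Z Z₀ → ∀ x ∈ Cl k R t₁, x.im < -p → Y x = Z₀ (W, x)

/-- H: uncountably many touching steps, each with its wedge at every place -/
def Spec_H : Prop := ∀ (X : DD) (N j : ℕ) a M 𝒰 u s g (C₁ : ℝ), 8 ≤ N → Envl X.η X.u₀ X.p N a →
  Win X a j M 𝒰 u s g → ∃ W₂ : ℝ, ∀ W₁ ≥ W₂, Base X 𝒰 u s g W₁ (W₁ ^ 3) 0 →
  ∃ L T ρ K C R t₁ : ℝ, 0 < R ∧ 0 < t₁ ∧ (W₁ ^ 3) ^ 4 * (1 + R) ≤ t₁ ^ 4 ∧ L ≤ R ∧ t₁ + 1 ≤ T ∧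
    2 ≤ L ∧ L ≤ W₁ ^ 6 ∧ T ≤ W₁ ^ 6 ∧ C₁ * C * W₁ ≤ L ∧
    ∃ TT : Set ℝ, ¬ TT.Countable ∧ ∀ v₀ ∈ TT, W₁ ≤ v₀ ∧ v₀ ≤ 3 * W₁ ∧ ball (v₀ : ℂ) ρ ⊆ Ud W₁ ∧
      ∃ (v b : ℕ → ℝ) (p b₀ : ℝ), Tendsto v 𝒰 (𝓝 v₀) ∧
        Tendsto (fun n => X.pw (u n) (v n)) 𝒰 (𝓝 p) ∧ -T + 2 ≤ -p ∧
        ∀ (k : ℝ) Z Z₀, Deep X 𝒰 u s g W₁ k R t₁ Z Z₀ → ∃ F F₀,
          Loc 𝒰 (fun n => X.ep (u n)) (fun n => X.θw (u n) (s n)) (fun n => X.hw (u n) (s n))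
            (fun n => X.Uw (u n) (s n)) k L T ρ K C v (fun n => -X.pw (u n) (v n)) b v₀ (-p) b₀
            F F₀ ∧
          EqOn F₀ Z₀ (ball (v₀ : ℂ) ρ ×ˢ D.Rc (k - L) (k + L) (-T) (-T + 1))

/-- L: a place with bounded states -/
def Spec_L : Prop := ∀ (K m : ℕ) (a₀ c₀ : ℝ), 0 ≤ a₀ → 0 < c₀ → ∃ j₀ : ℕ, ∀ j ≥ j₀, ∀ M : ℝ,
  ∃ W₂ : ℝ, ∀ W ≥ W₂, ∀ (g Y : ℂ → ℂ) (P : ℤ → Prop) (p T₀ L T : ℝ), Lim m j M a₀ c₀ g P →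
    (∀ τ : ℝ, 0 < τ → ¬ Decay g τ) → NC.Lf g W p Y → 0 ≤ p → p ≤ T₀ → W ^ 2 ≤ T₀ → T₀ ≤ W ^ K →
    L ≤ W ^ K → T ≤ W ^ K → (∀ k, P k → WA Y k T₀) → ∃ k, P k ∧ ∃ τ > 0, ∃ B : ℝ,
      ∀ x ∈ D.Rc (k - L) (k + L) (-T) (-p),
        (Y x).im ≤ -τ ∧ ‖Y x‖ ≤ B ∧ ‖W * g (Y x) * deriv Y x / 2‖ ≤ B

/-- OBS: the list of obstacles, with slopes which are different or linked -/
def Spec_OBS2 : Prop := ∀ E : D.Dat, E.Ok → D.SZ E.g → ∃ Y, D.Mx E Y ∧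
  ∀ (T : ℝ → ℝ) (Z : ℝ → ℂ → ℂ) (a₁ a₂ : ℝ), E.α < a₁ → a₁ ≤ a₂ → a₂ < E.β →
  ∃ N : Set ℝ, N.Countable ∧ ∀ W : ℝ, W ∉ N → D.Lv E W (T W) (Z W) →
    (∀ x ∈ D.Rc E.α E.β E.b₀ (T W), ((W : ℂ), x) ∈ E.Om ∧ Y (W, x) = Z W x) ∧
    (D.Bd E W (T W) (Z W) →
      ∃ σ ρ n X Φ Δ, D.Obs E Y W (T W) a₁ a₂ σ ρ n X Φ Δ ∧ D.Lev W σ X ∧
        ∀ c c', deriv (fun w => (X c' w - X c w) / w) W ≠ 0 ∨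
          ∃ κ : ℂ, ∀ w ∈ ball (W : ℂ) σ, X c' w - X c w = κ * w)

/-- T: different obstacles are not linked -/
def Spec_T : Prop := ∀ (K m : ℕ) (a₀ c₀ : ℝ), 0 ≤ a₀ → 0 < c₀ → ∃ j₀ : ℕ, ∀ j ≥ j₀, ∀ M : ℝ,
  ∃ W₂ : ℝ, ∀ W ≥ W₂, ∀ (Y : ℂ → ℂ) (P : ℤ → Prop) (p T₀ : ℝ) (k : ℤ) (E : D.Dat)
    (Y₂ : ℂ × ℂ → ℂ) (a₁ a₂ σ ρ : ℝ) (n : ℕ) (X : Fin n → ℂ → ℂ) (Φ Δ : Fin n → ℂ × ℂ → ℂ),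
    Lim m j M a₀ c₀ E.g P → NC.Lf E.g W p Y → 0 ≤ p → p ≤ T₀ → W ^ 2 ≤ T₀ → T₀ ≤ W ^ K → P k →
    WA Y k T₀ → k - W ^ K ≤ E.α → E.β ≤ k + W ^ K → -W ^ K ≤ E.b₀ → D.Mx E Y₂ →
    (∀ x ∈ D.Rc E.α E.β E.b₀ (-p), ((W : ℂ), x) ∈ E.Om ∧ Y₂ (W, x) = Y x) →
    D.Obs E Y₂ W (-p) a₁ a₂ σ ρ n X Φ Δ →
    ∀ c c' (κ : ℂ), (∀ w ∈ ball (W : ℂ) σ, X c' w - X c w = κ * w) → c = c'

/-- TRUE = N + Q + E: the local contradiction -/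
def Spec_TRUE : Prop := ∃ C₁ : ℝ, 0 < C₁ ∧ ∀ (𝒰 : Ultrafilter ℕ) (ε : ℕ → ℝ)
  (θ h Q : ℕ → ℂ → ℂ) (c : ℕ → ℂ) (U : ℕ → Set ℂ) (E : D.Dat) (Y : ℂ × ℂ → ℂ)
  (a L ρ K C : ℝ) (v H b : ℕ → ℝ) (W H₀ b₀ : ℝ) (F : ℕ → ℂ × ℂ → ℂ) (F₀ : ℂ × ℂ → ℂ)
  (σ ρ' : ℝ) (n : ℕ) (X : Fin n → ℂ → ℂ) (Φ Δ : Fin n → ℂ × ℂ → ℂ),
  P097Mo.Seq 𝒰 (fun j => (ε j : ℂ)) θ h Q c U E.g (Lo 0) → (∀ j, 0 < ε j) → (∀ j, U j ⊆ Lo 0) →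
  (∃ y ∈ Lo 0, E.g y ≠ 0) → D.SZ E.g → D.Mx E Y → E.α = a - L → E.β = a + L →
  E.b₁ = E.b₀ + 1 → Loc 𝒰 ε θ h U a L (-E.b₀) ρ K C v H b W H₀ b₀ F F₀ →
  ball (W : ℂ) ρ ⊆ E.U → EqOn F₀ E.A (ball (W : ℂ) ρ ×ˢ D.Rc E.α E.β E.b₀ E.b₁) →
  D.Obs E Y W H₀ (a - L + 1) (a + L - 1) σ ρ' n X Φ Δ → D.Lev W σ X →
  (∀ c c', c ≠ c' → deriv (fun w => (X c' w - X c w) / w) W ≠ 0) →
  1 ≤ W → C₁ * C * W ≤ L → False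

/-- CM: the circle machine -/
def Spec_CM : Prop := ∀ X : DD, ∃ N₀ : ℕ, ∀ N ≥ N₀, ∀ a, Envl X.η X.u₀ X.p N a → ¬ X.Circ a

theorem th_of (h1 : Spec_DICH) (h2 : Spec_CM) : Spec_TH := by
  intro r c κ u₀ p θ H Q Y₀ η Y D
  obtain ⟨N₁, h1⟩ := h1 ⟨r, c, κ, u₀, p, θ, H, Q, Y₀, η, Y, D⟩
  obtain ⟨N₂, h2⟩ := h2 ⟨r, c, κ, u₀, p, θ, H, Q, Y₀, η, Y, D⟩
  obtain ⟨C, hC⟩ := D.pw
  obtain ⟨a, ha⟩ := P097W.envl η u₀ C p (N₁ + N₂ + 2) (by omega) D.fam.nn hC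
  exact (h1 _ (by omega) a ha).resolve_right (h2 _ (by omega) a ha)

end Vale.Agent.P097F
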