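import Vale.Agent.P097F.Defs

/-!
# P097F: the circle machine from its blocks
-/

set_option linter.all false

noncomputable section

namespace Vale.Agent.P097F

open Filter Topology Set Metric Complex Vale.Agent.P097T
open Vale.Agent.P097D (Lo Decay)

theorem mem_Ud {W₁ W : ℝ} (h0 : 0 < W₁) (h1 : W₁ ≤ W) (h3 : W ≤ 3 * W₁) : (W : ℂ) ∈ Ud W₁ := by
  have e : (W : ℂ) - 2 * W₁ = ((W - 2 * W₁ : ℝ) : ℂ) := by push_cast; ring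
  rw [Ud, mem_ball, dist_eq_norm, e, norm_real, Real.norm_eq_abs, abs_lt]
  constructor <;> linarith

theorem ne_of_Ud {W₁ : ℝ} {W : ℂ} (h : W ∈ Ud W₁) : W ≠ 0 := by
  rintro rfl
  rw [Ud, mem_ball, dist_eq_norm, zero_sub, norm_neg, norm_mul, norm_real, Real.norm_eq_abs,
    Complex.norm_two] at h
  linarith [le_abs_self W₁, abs_nonneg W₁]

theorem DD.Uw_sub (X : DD) {u s : ℝ} (h : 0 < X.η u) : X.Uw u s ⊆ Lo 0 := by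
  intro z hz
  have k : |(X.wy u s z).im| < X.r := hz
  have e : (X.wy u s z).im = X.r + X.η u * z.im := by simp [DD.wy]
  rw [e] at k
  have := (abs_lt.1 k).2
  show z.im < 0
  by_contra n
  nlinarith [mul_nonneg h.le (not_lt.1 n)]

theorem ed_ok {X : DD} {𝒰 : Ultrafilter ℕ} {u s : ℕ → ℝ} {g : ℂ → ℂ} {W₁ a R t₁ L T : ℝ}
    {Z : ℕ → ℂ × ℂ → ℂ} {Z₀ : ℂ × ℂ → ℂ} (D' : Deep X 𝒰 u s g W₁ a R t₁ Z Z₀)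
    (dg : DifferentiableOn ℂ g (Lo 0)) (LR : L ≤ R) (tT : t₁ + 1 ≤ T) :
    D.Rc (a - L) (a + L) (-T) (-T + 1) ⊆ Cl a R t₁ ∧ (Ed g Z₀ W₁ a L T).Ok := by
  have sb : D.Rc (a - L) (a + L) (-T) (-T + 1) ⊆ Cl a R t₁ := fun x ⟨h1, h2, _, h4⟩ =>
    ⟨by linarith, by linarith, by linarith⟩
  have sp : Ud W₁ ×ˢ D.Rc (a - L) (a + L) (-T) (-T + 1) ⊆ Ud W₁ ×ˢ Cl a R t₁ :=
    prod_mono subset_rfl sb
  exact ⟨sb, isOpen_ball, fun W hW => ne_of_Ud hW, dg, lt_add_one _,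
    D'.fam.an.mono sp, fun q hq => D'.fam.lo q (sp hq), fun q hq => D'.fam.law q (sp hq)⟩

theorem wa_of {X : DD} {𝒰 : Ultrafilter ℕ} {u s : ℕ → ℝ} {g Y : ℂ → ℂ} {W₁ W T₀ p a : ℝ}
    (B : Base X 𝒰 u s g W₁ T₀ a) (T0 : 0 < T₀) (pT : p ≤ T₀) (hW : (W : ℂ) ∈ Ud W₁)
    (e : ∀ k R t₁ Z Z₀, Deep X 𝒰 u s g W₁ k R t₁ Z Z₀ → ∀ x ∈ Cl k R t₁, x.im < -p →
      Y x = Z₀ (W, x)) : WA Y a T₀ := by
  intro x x0 hx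
  have a0 := abs_nonneg (x.re - a)
  have p4 := pow_pos T0 4
  obtain ⟨t, t0, ht⟩ : ∃ t : ℝ, 0 < t ∧ t ^ 4 = T₀ ^ 4 * (2 + |x.re - a|) :=
    ⟨_, Real.rpow_pos_of_pos (by positivity) _,
      Real.rpow_inv_natCast_pow (n := 4) (by positivity) (by norm_num)⟩
  have t1 : t < -x.im := by
    refine lt_of_pow_lt_pow_left₀ 4 (by linarith) ?_
    rw [ht, Even.neg_pow (by decide)]
    exact hx
  have t2 : T₀ ≤ t := by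
    refine le_of_pow_le_pow_left₀ (n := 4) (by norm_num) t0.le ?_
    rw [ht]
    nlinarith
  obtain ⟨Z, Z₀, D'⟩ := B (|x.re - a| + 1) t (by positivity) t0 (by rw [ht]; apply le_of_eq; ring)
  have m : x ∈ Cl a (|x.re - a| + 1) t :=
    ⟨by linarith [neg_abs_le (x.re - a)], by linarith [le_abs_self (x.re - a)], by linarith⟩
  rw [e _ _ _ _ _ D' x m (by linarith)]
  exact D'.bd (W, x) ⟨hW, m⟩

theorem cm_of (hA : Spec_A) (hLIM : Spec_LIM) (hB : Spec_B) (hBASE : Spec_BASE)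
    (hLEAF : Spec_LEAF) (hH : Spec_H) (hL : Spec_L) (hO : Spec_OBS2) (hT : Spec_T)
    (hTR : Spec_TRUE) : Spec_CM := by
  intro X
  obtain ⟨a₀, c₀, a0, c0, LIM⟩ := hLIM X
  obtain ⟨jB, B⟩ := hB X
  obtain ⟨jS, BASE⟩ := hBASE X
  obtain ⟨jL, L'⟩ := hL 6 (X.p + 1) a₀ c₀ a0 c0
  obtain ⟨jT, T'⟩ := hT 6 (X.p + 1) a₀ c₀ a0 c0
  obtain ⟨C₁, C1, TR⟩ := hTR
  obtain ⟨j, j1, j2, j3, j4, j5⟩ : ∃ j : ℕ, jB ≤ j ∧ jS ≤ j ∧ jL ≤ j ∧ jT ≤ j ∧ 8 ≤ j :=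
    ⟨jB + jS + jL + jT + 8, by omega, by omega, by omega, by omega, by omega⟩
  obtain ⟨N₀, A⟩ := hA X (2 * j) (by omega)
  refine ⟨N₀ + 2 * j, fun N hN a E Ci => ?_⟩
  obtain ⟨M, 𝒰, u, s, g, Wn⟩ := A N (by omega) a E Ci
  obtain ⟨M', Lm⟩ := LIM j N j5 (by omega) a M 𝒰 u s g E Wn
  have nd := B (2 * j) (by omega) N (by omega) a M 𝒰 u s g E Wn
  obtain ⟨W₂, Bs⟩ := BASE (2 * j) (by omega) N (by omega) a M 𝒰 u s g E Wn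
  obtain ⟨W₃, Ll⟩ := L' j j3 M'
  obtain ⟨W₄, Tt⟩ := T' j j4 M'
  obtain ⟨W₅, Hh⟩ := hH X N (2 * j) a M 𝒰 u s g (3 * C₁) (by omega) E Wn
  obtain ⟨W₁, w2, w3, w4, w5, w0⟩ : ∃ W₁ : ℝ, W₂ ≤ W₁ ∧ W₃ ≤ W₁ ∧ W₄ ≤ W₁ ∧ W₅ ≤ W₁ ∧ 100 ≤ W₁ :=
    ⟨max (max W₂ W₃) (max (max W₄ W₅) 100), by simp, by simp, by simp, by simp, by simp⟩
  have B0 : Base X 𝒰 u s g W₁ (W₁ ^ 3) 0 := by simpa using Bs W₁ w2 0 Wn.p0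
  obtain ⟨L, T, ρ, K, C, R, t₁, R0, t0, hRt, LR, tT, L2, LW, TW, CL, TT, unc, hTT⟩ := Hh W₁ w5 B0
  have W0 : 0 < W₁ := by linarith
  -- the leaves at the touching steps
  have lf : ∀ W : ℝ, ∃ (v b : ℕ → ℝ) (p b₀ : ℝ) (Y : ℂ → ℂ), W ∈ TT → (-T + 2 ≤ -p ∧ 0 ≤ p ∧
      p ≤ W₁ ^ 3 ∧ NC.Lf g W p Y ∧ ∀ k R t₁ Z Z₀, Deep X 𝒰 u s g W₁ k R t₁ Z Z₀ →
        ∀ x ∈ Cl k R t₁, x.im < -p → Y x = Z₀ (W, x)) ∧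
      ∀ (k : ℝ) Z Z₀, Deep X 𝒰 u s g W₁ k R t₁ Z Z₀ → ∃ F F₀,
        Loc 𝒰 (fun n => X.ep (u n)) (fun n => X.θw (u n) (s n)) (fun n => X.hw (u n) (s n))
          (fun n => X.Uw (u n) (s n)) k L T ρ K C v (fun n => -X.pw (u n) (v n)) b W (-p) b₀
          F F₀ ∧ EqOn F₀ Z₀ (ball (W : ℂ) ρ ×ˢ D.Rc (k - L) (k + L) (-T) (-T + 1)) := by
    intro W
    by_cases m : W ∈ TT
    · obtain ⟨h1, h3, -, v, b, p, b₀, lv, lp, pT, loc⟩ := hTT W m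
      obtain ⟨p0, p1, Y, lY, eY⟩ :=
        hLEAF X N (2 * j) a M 𝒰 u s g W₁ W p v (by omega) E Wn w0 h1 h3 lv lp B0
      exact ⟨v, b, p, b₀, Y, fun _ => ⟨⟨pT, p0, p1, lY, eY⟩, loc⟩⟩
    · exact ⟨0, 0, 0, 0, 0, fun h => (m h).elim⟩
  choose v b p b₀ Y hY using lf
  -- the obstacles at the good places
  have ob : ∀ k : ℤ, ∃ (Z : ℕ → ℂ × ℂ → ℂ) (Z₀ Y₂ : ℂ × ℂ → ℂ) (S : Set ℝ), S.Countable ∧
      (X.Pl a (2 * j) M 𝒰 u s k → Deep X 𝒰 u s g W₁ k R t₁ Z Z₀ ∧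
        D.Mx (Ed g Z₀ W₁ k L T) Y₂ ∧ ∀ W : ℝ, W ∉ S → D.Lv (Ed g Z₀ W₁ k L T) W (-p W) (Y W) →
        (∀ x ∈ D.Rc (k - L) (k + L) (-T) (-p W),
          ((W : ℂ), x) ∈ (Ed g Z₀ W₁ k L T).Om ∧ Y₂ (W, x) = Y W x) ∧
        (D.Bd (Ed g Z₀ W₁ k L T) W (-p W) (Y W) → ∃ σ ρ n X Φ Δ,
          D.Obs (Ed g Z₀ W₁ k L T) Y₂ W (-p W) (k - L + 1) (k + L - 1) σ ρ n X Φ Δ ∧
          D.Lev W σ X ∧ ∀ c c', deriv (fun w => (X c' w - X c w) / w) W ≠ 0 ∨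
            ∃ κ : ℂ, ∀ w ∈ ball (W : ℂ) σ, X c' w - X c w = κ * w)) := by
    intro k
    by_cases m : X.Pl a (2 * j) M 𝒰 u s k
    · obtain ⟨Z, Z₀, D'⟩ := Bs W₁ w2 k m R t₁ R0 t0 hRt
      obtain ⟨Y₂, mx, h⟩ := hO _ (ed_ok D' Lm.dg LR tT).2 Lm.sz
      obtain ⟨S, hS, h⟩ := h (fun W => -p W) Y (k - L + 1) (k + L - 1) (lt_add_one _)
        (by linarith) (sub_one_lt _)
      exact ⟨Z, Z₀, Y₂, S, hS, fun _ => ⟨D', mx, h⟩⟩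
    · exact ⟨0, 0, 0, ∅, countable_empty, fun h => (m h).elim⟩
  choose Z Z₀ Y₂ S hS hZ using ob
  obtain ⟨W, m, nS⟩ : ∃ W ∈ TT, W ∉ ⋃ k, S k :=
    not_subset.1 fun h => unc ((countable_iUnion hS).mono h)
  obtain ⟨h1, h3, hρ, -⟩ := hTT W m
  obtain ⟨⟨pT, p0, p1, lY, eY⟩, loc⟩ := hY W m
  have hU := mem_Ud W0 h1 h3
  have wa : ∀ k : ℤ, X.Pl a (2 * j) M 𝒰 u s k → WA (Y W) k (W₁ ^ 3) := fun k hk =>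
    wa_of (Bs W₁ w2 k hk) (by positivity) p1 hU eY
  have n2 : W ^ 2 ≤ W₁ ^ 3 := by
    calc W ^ 2 ≤ (3 * W₁) ^ 2 := by gcongr; linarith
      _ = 9 * W₁ ^ 2 := by ring
      _ ≤ W₁ * W₁ ^ 2 := by gcongr; linarith
      _ = _ := by ring
  have n6 : W₁ ^ 6 ≤ W ^ 6 := by gcongr
  have n3 : W₁ ^ 3 ≤ W ^ 6 := (pow_le_pow_right₀ (by linarith) (by norm_num)).trans n6
  obtain ⟨k, hk, τ, τ0, Bd, bd⟩ := Ll W (w3.trans h1) g (Y W) _ (p W) (W₁ ^ 3) L T Lm nd lY p0 p1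
    n2 n3 (LW.trans n6) (TW.trans n6) wa
  obtain ⟨D', mx, h⟩ := hZ k hk
  have sb := (ed_ok D' Lm.dg LR tT).1
  obtain ⟨om, h⟩ := h W (fun e => nS (mem_iUnion.2 ⟨k, e⟩)) ⟨hU, by show -T + 1 < _; linarith,
    lY.dY.mono fun x hx => hx.2.2.2, fun x hx => by linarith [lY.pos x hx.2.2.2, hx.2.2.2],
    fun x hx => eY _ _ _ _ _ D' x (sb hx) (by have : x.im < -T + 1 := hx.2.2.2; linarith)⟩
  obtain ⟨σ, ρ', n, Xc, Φ, Δ, O, lev, sl⟩ := h ⟨τ, τ0, Bd, fun x hx => bd x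
    ⟨hx.1, hx.2.1, by have : -T + 1 < x.im := hx.2.2.1; linarith, hx.2.2.2⟩⟩
  have nl := Tt W (w4.trans h1) (Y W) _ (p W) (W₁ ^ 3) k (Ed g (Z₀ k) W₁ k L T) (Y₂ k) _ _ σ ρ' n
    Xc Φ Δ Lm lY p0 p1 n2 n3 hk (wa k hk) (by show _ ≤ k - L; linarith)
    (by show k + L ≤ _; linarith) (by show _ ≤ -T; linarith) mx om O
  obtain ⟨F, F₀, lc, eq⟩ := loc k _ _ D'
  refine TR 𝒰 _ _ _ _ _ _ (Ed g (Z₀ k) W₁ k L T) (Y₂ k) k L ρ K C (v W) _ (b W) W (-p W) (b₀ W)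
    F F₀ σ ρ' n Xc Φ Δ Wn.seq (fun n => div_pos (Wn.pk n).1.1 (Wn.pk n).2.1)
    (fun n => X.Uw_sub (Wn.pk n).2.1) Wn.ne Lm.sz mx rfl rfl rfl
    (by show Loc _ _ _ _ _ _ _ (- -T) _ _ _ _ _ _ _ _ _ _ _; rw [neg_neg]; exact lc) hρ eq O lev
    (fun c c' ne => (sl c c').resolve_right fun ⟨κ, e⟩ => ne (nl c c' κ e)) (by linarith) ?_
  have := lc.C1
  calc C₁ * C * W ≤ C₁ * C * (3 * W₁) := by gcongr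
    _ = 3 * C₁ * C * W₁ := by ring
    _ ≤ L := CL

end Vale.Agent.P097F
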