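import Vale.Agent.P097F.Top0
import Vale.Agent.P097S.Eta
import Vale.Agent.P097W.Defs

/-!
# P097F: the family of maximal real leaves
-/

set_option linter.all false

noncomputable section

namespace Vale.Agent.P097F

open Filter Topology Set Metric Complex Vale.Agent.P097 Vale.Agent.P097T Vale.Agent.P097Top EB EA

/-- The maximal leaves: `Y u` is analytic near `Strip (r - η u) × {u}`, and no bidisc at a top
point continues it. -/
structure Fam (r κ u₀ : ℝ) (θ H : ℂ → ℂ) (Y₀ : ℂ × ℂ → ℂ) (η : ℝ → ℝ) (Y : ℝ → ℂ × ℂ → ℂ) :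
    Prop where
  sol : Sol0 θ H κ Y₀
  two : 2 * κ ≤ r
  pos : 0 < u₀
  uκ : 4 * u₀ ≤ κ
  nn : ∀ u ∈ Ioo 0 u₀, 0 ≤ η u
  low : ∀ u ∈ Ioo 0 u₀, η u ≤ r - κ
  an : ∀ u ∈ Ioo 0 u₀, ∀ x ∈ Strip (r - η u), AnalyticAt ℂ (Y u) (x, u)
  base : ∀ u ∈ Ioo 0 u₀, ∀ x ∈ Strip κ, Y₀ =ᶠ[𝓝 (x, (u : ℂ))] Y u
  fe : ∀ u ∈ Ioo 0 u₀, Lf2F θ H u (r - η u) (Y u)
  leaf : ∀ u ∈ Ioo 0 u₀, P097M.Leaf θ H r u (r - η u) fun x => Y u (x, u)
  up : ∀ u ∈ Ioo 0 u₀, ∀ (x₁ : ℂ) (ρ : ℝ) (F₀ F₁ : ℂ × ℂ → ℂ), x₁.im = r - η u → 0 < ρ →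
    AnalyticOnNhd ℂ F₀ (ball x₁ ρ ×ˢ ball (u : ℂ) ρ) →
    AnalyticOnNhd ℂ F₁ (ball x₁ ρ ×ˢ ball (u : ℂ) ρ) →
    MapsTo F₀ (ball x₁ ρ ×ˢ ball (u : ℂ) ρ) (Strip r) →
    MapsTo F₁ (ball x₁ ρ ×ˢ ball (u : ℂ) ρ) (Strip r) →
    (∀ x ∈ ball x₁ ρ ∩ Strip (r - η u), F₀ =ᶠ[𝓝 (x, (u : ℂ))] Y u ∧
      F₁ =ᶠ[𝓝 (x, (u : ℂ))] fun q => Y u (q.1 + q.2, q.2)) → False

/-- the mean height of the image of a horizontal line -/
theorem mean_im {T t : ℝ} {Y : ℂ → ℂ} (d : DifferentiableOn ℂ Y (Strip T))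
    (p : ∀ x ∈ Strip T, Y (x + 1) = Y x + 1) (re : ∀ x : ℝ, (Y x).im = 0) (m : |t| < T) :
    Continuous (fun x : ℝ => Y (x + t * I)) ∧ ∫ x in (0 : ℝ)..1, (Y (x + t * I)).im = t := by
  have k : ∀ z : ℂ, z.im ∈ uIcc 0 t → z ∈ Strip T := fun z hz => by
    show |z.im| < T
    refine lt_of_le_of_lt ?_ m
    simpa using abs_sub_left_of_mem_uIcc hz
  have cn : ∀ s : ℝ, |s| < T → Continuous fun x : ℝ => Y (x + s * I) := fun s hs =>
    d.continuousOn.comp_continuous (by fun_prop) fun x => by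
      show |((x : ℂ) + s * I).im| < T
      simpa using hs
  have c := integral_boundary_rect_eq_zero_of_differentiableOn (fun z => Y z - z) 0 ⟨1, t⟩
    ((d.sub differentiableOn_id).mono fun z hz => k z hz.2)
  have s : ∫ y in (0 : ℝ)..t, (Y (((1 : ℝ) : ℂ) + y * I) - (((1 : ℝ) : ℂ) + y * I)) =
      ∫ y in (0 : ℝ)..t, (Y (((0 : ℝ) : ℂ) + y * I) - (((0 : ℝ) : ℂ) + y * I)) :=
    intervalIntegral.integral_congr fun y hy => by
      have := p (((0 : ℝ) : ℂ) + y * I) (k _ (by simpa using hy))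
      rw [show ((0 : ℝ) : ℂ) + y * I + 1 = ((1 : ℝ) : ℂ) + y * I by push_cast; ring] at this
      show Y _ - _ = Y _ - _
      rw [this]
      push_cast
      ring
  simp only [zero_re, zero_im, s, add_sub_cancel_right] at c
  have c0 := cn 0 ((abs_nonneg t).trans_lt m |> fun h => by simpa using h)
  have c1 := cn t m
  have i0 : IntervalIntegrable (fun x : ℝ => Y (x + (0 : ℝ) * I) - (x + (0 : ℝ) * I))
      MeasureTheory.volume 0 1 := (c0.sub (by fun_prop)).intervalIntegrable _ _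
  have i1 : IntervalIntegrable (fun x : ℝ => Y (x + t * I) - (x + t * I))
      MeasureTheory.volume 0 1 := (c1.sub (by fun_prop)).intervalIntegrable _ _
  have j0 := (imCLM.intervalIntegral_comp_comm i0).symm
  have j1 := (imCLM.intervalIntegral_comp_comm i1).symm
  rw [← sub_eq_zero.1 c, j0] at j1
  simp only [imCLM_apply, sub_im, add_im, ofReal_im, mul_im, ofReal_re, I_im, mul_one, I_re,
    mul_zero, add_zero, zero_add, ofReal_zero, zero_mul, re, sub_zero,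
    intervalIntegral.integral_zero] at j1
  refine ⟨c1, ?_⟩
  rw [intervalIntegral.integral_sub (f := fun x : ℝ => (Y (x + t * I)).im)
    ((continuous_im.comp c1).intervalIntegrable _ _) intervalIntegrable_const] at j1
  simp only [intervalIntegral.integral_const, sub_zero, one_smul] at j1
  linarith

/-- a periodic map of strips does not shrink the width -/
theorem width {r T : ℝ} {Y : ℂ → ℂ} (d : DifferentiableOn ℂ Y (Strip T))
    (m : ∀ x ∈ Strip T, Y x ∈ Strip r) (p : ∀ x ∈ Strip T, Y (x + 1) = Y x + 1)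
    (re : ∀ x : ℝ, (Y x).im = 0) (T0 : 0 < T) : T ≤ r := by
  refine le_of_forall_lt_imp_le_of_dense fun t ht => ?_
  have r0 : 0 < r := (abs_nonneg _).trans_lt (m (0 : ℝ) (Leaf.real_mem T0 0))
  rcases le_total t 0 with k | k
  · linarith
  obtain ⟨c, e⟩ := mean_im d p re (t := t) (by rwa [abs_of_nonneg k])
  have := intervalIntegral.integral_mono_on (μ := MeasureTheory.volume) zero_le_one
    ((continuous_im.comp c).intervalIntegrable 0 1) (intervalIntegrable_const (c := r))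
    fun x _ => ((le_abs_self _).trans_lt (m _ (show |((x : ℂ) + t * I).im| < T by
      simpa [abs_of_nonneg k] using ht))).le
  simp only [intervalIntegral.integral_const, sub_zero, one_smul, Function.comp_def] at this
  linarith

theorem fam {h : ℝ → ℝ} {ε : ℝ} {ψ δ : ℝ × ℝ → ℝ} {r c : ℝ} {θ H Q : ℂ → ℂ}
    (N : Gm.NF h ε ψ δ) (C : Cur r c θ H Q) (A : Agr h ψ θ H) (B : NatB r θ) :
    ∃ κ u₀ Y₀ η Y, Fam r κ u₀ θ H Y₀ η Y := by
  obtain ⟨κ, Y₀, S, k1, k2, e⟩ := y0 rl h ε ψ δ r c θ H Q N C A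
  obtain ⟨u₁, u1, hδ⟩ := P097S.Lp.small N
  have κ0 := S.pos
  set u₀ := min u₁ (κ / 4) with hu₀
  have v1 : u₀ ≤ u₁ := min_le_left _ _
  have v2 : u₀ ≤ κ / 4 := min_le_right _ _
  have key : ∀ u : ℝ, ∃ (T : ℝ) (Y : ℂ × ℂ → ℂ), u ∈ Ioo 0 u₀ →
      Lf2 θ ψ r u T Y ∧ ∀ T' Y', T < T' → ¬ Lf2 θ ψ r u T' Y' := by
    intro u
    by_cases m : u ∈ Ioo 0 u₀
    · obtain ⟨T, Y, k⟩ := sup2 rl germ (lf2f rl germ) h ε ψ δ r c u κ θ H Q Y₀ N C A m.1
        (by linarith [m.2]) (lf2_of S k2 e (by rw [abs_of_pos m.1]; linarith [m.2]))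
      exact ⟨T, Y, fun _ => k⟩
    · exact ⟨0, 0, fun k => (m k).elim⟩
  choose T Y hY using key
  have e0 : ∀ u, r - (r - T u) = T u := fun u => sub_sub_cancel _ _
  have a0 : ∀ u ∈ Ioo 0 u₀, |u| < κ := fun u m => by rw [abs_of_pos m.1]; linarith [m.2]
  have a1 : ∀ u ∈ Ioo 0 u₀, u < ε := fun u m => by linarith [m.2]
  have L0 : ∀ u ∈ Ioo 0 u₀, Lf2 θ ψ r u κ Y₀ := fun u m => lf2_of S k2 e (a0 u m)
  have T1 : ∀ u ∈ Ioo 0 u₀, κ ≤ T u := fun u m => not_lt.mp fun k => (hY u m).2 κ Y₀ k (L0 u m)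
  have g0 : ∀ u ∈ Ioo 0 u₀, ∀ x ∈ Strip κ, Y₀ =ᶠ[𝓝 (x, (u : ℂ))] Y u := by
    intro u m
    have L := (hY u m).1
    refine germ Y₀ (Y u) (Strip κ) u 0 (Leaf.convex_strip κ).isPreconnected (Leaf.real_mem κ0 0)
      (fun x hx => ⟨(L0 u m).an x hx, L.an x (lt_of_lt_of_le hx (T1 u m))⟩) ?_
    filter_upwards [(L0 u m).re 0, L.re 0] with q h1 h2
    have f1 : Y₀ (q.1, q.2) = ((Y₀ (q.1, q.2)).re : ℝ) :=
      Complex.ext rfl (by rw [h1.1, ofReal_im])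
    have f2 : Y u (q.1, q.2) = ((Y u (q.1, q.2)).re : ℝ) :=
      Complex.ext rfl (by rw [h2.1, ofReal_im])
    rw [f1, f2, (rl h ε ψ δ r c θ H Q N C A).1 (Y₀ (q.1, q.2)).re (Y u (q.1, q.2)).re
      (by rw [← f1, ← f2, h1.2, h2.2])]
  have fe : ∀ u ∈ Ioo 0 u₀, Lf2F θ H u (T u) (Y u) := fun u m =>
    lf2f rl germ h ε ψ δ r c u (T u) θ H Q (Y u) N C A m.1 (a1 u m) (hY u m).1
  have lf : ∀ u ∈ Ioo 0 u₀, P097M.Leaf θ H r u (T u) fun x => Y u (x, u) := by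
    intro u m
    have L := (hY u m).1
    have re : ∀ x : ℝ, (x : ℂ) ∈ Strip κ := Leaf.real_mem κ0
    have w : (u : ℂ) ∈ ball (0 : ℂ) κ := by simpa using a0 u m
    refine ⟨fun x hx => (AnalyticAt.comp (g := Y u) (f := fun x : ℂ => (x, (u : ℂ))) (L.an x hx)
      (analyticAt_id.prod analyticAt_const)).differentiableAt.differentiableWithinAt, L.mem,
      fun x hx => (fe u m x hx).self_of_nhds.1, fun x => (L.re x).self_of_nhds.1, fun x => ?_,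
      fun x hx => (fe u m x hx).self_of_nhds.2⟩
    have := S.bd (x, u) ⟨re x, w⟩
    rw [(g0 u m x (re x)).eq_of_nhds] at this
    rwa [norm_real, Real.norm_eq_abs, abs_of_pos m.1] at this
  refine ⟨κ, u₀, Y₀, fun u => r - T u, Y, S, k2, lt_min u1 (by positivity), by linarith,
    fun u m => ?_, fun u m => by linarith [T1 u m], fun u m => ?_, g0, fun u m => ?_,
    fun u m => ?_, fun u m x₁ ρ F₀ F₁ x1 ρ0 b0 b1 m0 m1 hF => ?_⟩
  · have L := lf u m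
    linarith [width L.d L.mem L.per L.re (κ0.trans_le (T1 u m))]
  · rw [e0]
    exact (hY u m).1.an
  · rw [e0]
    exact fe u m
  · rw [e0]
    exact lf u m
  · rw [e0] at x1 hF
    obtain ⟨T', Y', k3, k4⟩ := P097S.Lp.up rl (lf2f rl germ) (tube rl germ) uw' natb (two germ)
      N C A B m.1 (a1 u m) (hδ u (by rw [abs_of_pos m.1]; linarith [m.2])
        (by rw [abs_of_pos m.1]; exact a1 u m)) (hY u m).1 x1 ρ0 b0 b1 m0 m1 hF
    exact (hY u m).2 T' Y' k3 k4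

variable {r κ u₀ : ℝ} {θ H : ℂ → ℂ} {Y₀ : ℂ × ℂ → ℂ} {η : ℝ → ℝ} {Y : ℝ → ℂ × ℂ → ℂ}

theorem Fam.rch (F : Fam r κ u₀ θ H Y₀ η Y) {u e : ℝ} (m : u ∈ Ioo 0 u₀) (k : η u ≤ e) :
    P097W.Rch θ H r u e := by
  have L := F.leaf u m
  have s : Strip (r - e) ⊆ Strip (r - η u) := fun z hz =>
    lt_of_lt_of_le (b := r - e) hz (by linarith)
  exact ⟨_, L.d.mono s, fun x hx => L.mem x (s hx), fun x hx => L.per x (s hx), L.re, L.near,
    fun x hx => L.law x (s hx)⟩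

/-- the loss is not linear -/
theorem Fam.big (F : Fam r κ u₀ θ H Y₀ η Y) (E : ¬ P097M.Eta θ H r) (Λ u₁ : ℝ) (h : 0 < u₁) :
    ∃ S ∈ Ioo 0 u₀, S < u₁ ∧ Λ * S < η S := by
  by_contra k
  push Not at k
  refine E ⟨max Λ 0, min u₀ u₁, le_max_right _ _, lt_min F.pos h, fun u u0 u1 => ?_⟩
  have m : u ∈ Ioo 0 u₀ := ⟨u0, u1.trans_le (min_le_left _ _)⟩
  obtain ⟨Z, L⟩ := F.rch m ((k u m (u1.trans_le (min_le_right _ _))).trans
    (mul_le_mul_of_nonneg_right (le_max_left Λ 0) u0.le))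
  exact ⟨u, Z, by linarith, le_rfl, L⟩

open P097S P097S.Lp in
/-- a chart over a cone bounds the loss -/
theorem Fam.chart (F : Fam r κ u₀ θ H Y₀ η Y) {u s b d ρ : ℝ} {Z : ℂ × ℂ → ℂ} (m : u ∈ Ioo 0 u₀)
    (ch : Ch θ H Y₀ r κ s b d ρ Z) (b0 : 0 < b) (b1 : b ≤ 1) (ρ1 : 2 * u ≤ ρ) (d1 : 3 * u ≤ b * d) :
    η u ≤ 2 * d := by
  by_contra k
  push Not at k
  have u0 := m.1
  have κ0 := F.sol.pos
  have uκ : 4 * u ≤ κ := by linarith [m.2, F.uκ]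
  have d0 : 0 < d := (mul_pos_iff_of_pos_left b0).mp (by linarith)
  have d2 : 3 * u ≤ d := d1.trans (mul_le_of_le_one_left d0.le b1)
  have lo := F.low u m
  set T := r - η u with hT
  have T1 : κ ≤ T := by linarith
  have sb : ball (⟨s, T⟩ : ℂ) (3 * u) ⊆ Cn r s b d (κ / 4) := by
    intro x hx
    rw [mem_ball, dist_eq_norm] at hx
    have k1 := abs_lt.mp ((abs_im_le_norm _).trans_lt hx)
    have k2 := (abs_re_le_norm _).trans_lt hx
    simp only [sub_im, sub_re] at k1 k2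
    have k3 : d < r - x.im := by linarith [k1.2]
    refine ⟨by linarith [k1.1], k3, k2.trans_le ?_⟩
    nlinarith
  have wb : ∀ w ∈ ball (u : ℂ) u, ‖w‖ < 2 * u := fun w hw => by
    rw [mem_ball, dist_eq_norm] at hw
    have := norm_le_norm_add_norm_sub' w u
    rw [norm_real, Real.norm_of_nonneg u0.le] at this
    linarith
  have wm : ∀ w ∈ ball (u : ℂ) u, w ∈ ball (0 : ℂ) ρ := fun w hw =>
    mem_ball_zero_iff.mpr (by linarith [wb w hw])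
  have m0 : ∀ x ∈ ball (⟨s, T⟩ : ℂ) u, x ∈ Cn r s b d (κ / 4) := fun x hx =>
    sb (ball_subset_ball (by linarith) hx)
  have m1 : ∀ x ∈ ball (⟨s, T⟩ : ℂ) u, ∀ w ∈ ball (u : ℂ) u,
      x + w ∈ Cn r s b d (κ / 4) := fun x hx w hw => sb (by
    rw [mem_ball, dist_eq_norm] at hx ⊢
    rw [add_sub_right_comm]
    linarith [norm_add_le (x - ⟨s, T⟩) w, wb w hw])
  have um := mem_ball_self (x := (u : ℂ)) u0
  have x0 : (⟨s, 3 * κ / 8⟩ : ℂ) ∈ Cn r s b d (κ / 4) :=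
    ⟨by simp only; linarith, by simp only; linarith, by
      simp only [sub_self, abs_zero]
      exact mul_pos b0 (by linarith)⟩
  have x1 : |(⟨s, 3 * κ / 8⟩ : ℂ).im| < κ := by
    simp only
    rw [abs_of_pos (by positivity)]
    linarith
  have g1 := spread (F := Z) (G := Y u) (w := u)
    ((cn_convex r s b d (κ / 4)).inter (Leaf.convex_strip T)).isPreconnected
    ⟨x0, lt_of_lt_of_le x1 T1⟩ (fun x hx => ⟨ch_an ch _ ⟨hx.1, wm _ um⟩, F.an u m x hx.2⟩) (by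
      refine EventuallyEq.trans ?_ (F.base u m _ x1)
      filter_upwards [((cn_open _ _ _ _ _).prod isOpen_ball).mem_nhds
        (show ((⟨s, 3 * κ / 8⟩ : ℂ), (u : ℂ)) ∈ _ ×ˢ _ from ⟨x0, wm _ um⟩),
        (continuous_im.comp continuous_fst).continuousAt.eventually (gt_mem_nhds
          (show (⟨s, 3 * κ / 8⟩ : ℂ).im < κ / 2 by simp only; linarith))] with q q1 q2
      exact ch.eq _ q1.1 q2 _ q1.2)
  exact F.up u m ⟨s, T⟩ u Z (fun q => Z (q.1 + q.2, q.2)) rfl u0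
    (fun q hq => ch_an ch _ ⟨m0 _ hq.1, wm _ hq.2⟩)
    (fun q hq => AnalyticAt.comp (g := Z) (f := fun q : ℂ × ℂ => (q.1 + q.2, q.2))
      (ch_an ch _ ⟨m1 _ hq.1 _ hq.2, wm _ hq.2⟩)
      ((analyticAt_fst.add analyticAt_snd).prod analyticAt_snd))
    (fun q hq => ch_mem ch b1 d0.le κ0 (m0 _ hq.1) (wm _ hq.2))
    (fun q hq => ch_mem ch b1 d0.le κ0 (m1 _ hq.1 _ hq.2) (wm _ hq.2))
    fun x hx => ⟨g1 x ⟨m0 x hx.1, hx.2⟩, (Continuous.tendsto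
      (f := fun q : ℂ × ℂ => (q.1 + q.2, q.2)) (by fun_prop) (x, (u : ℂ))).eventually
        (g1 (x + u) ⟨m1 x hx.1 _ um, by simpa [Strip] using hx.2⟩)⟩

open P097S in
/-- a calm cone bounds the loss -/
theorem Fam.act (F : Fam r κ u₀ θ H Y₀ η Y) {c : ℝ} {Q : ℂ → ℂ} (C : Cur r c θ H Q) {a : ℝ}
    (a0 : 0 < a) (a1 : a ≤ 1) : ∃ c₁ : ℝ, 0 < c₁ ∧ ∀ u ∈ Ioo 0 u₀, ∀ s d A : ℝ, 0 < d → d ≤ r →
      1 ≤ A → Kc r θ Q s a d A → u * A ≤ c₁ * d → η u ≤ 16 * d := by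
  obtain ⟨b, c₁, b0, b1, c1, cb⟩ := P097S.cb _ _ _ _ _ _ _ (dt_of C F.sol F.two) a a0 a1
  refine ⟨min (c₁ / 2) b, lt_min (by positivity) b0, fun u m s d A d0 d1 A1 K k => ?_⟩
  obtain ⟨Z, ch⟩ := cb s d A d0 d1 A1 K
  have u0 := m.1
  have k1 : u * A ≤ c₁ / 2 * d := k.trans (by gcongr; exact min_le_left _ _)
  have k2 : u * A ≤ b * d := k.trans (by gcongr; exact min_le_right _ _)
  have := F.chart m ch b0 (by linarith) (by rw [le_div_iff₀ (by positivity)]; linarith)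
    (by nlinarith)
  linarith

end Vale.Agent.P097F
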