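import Vale.Agent.P097F.Defs
import Vale.Agent.P097F.SE.Seam
import Vale.Agent.P097F.G.Defs

/-!
# P097F: the local contradiction from layer C and the rows of the machine
-/

set_option linter.all false

noncomputable section

namespace Vale.Agent.P097F

open Filter Topology Set Metric Complex Vale.Agent.P097F.N Vale.Agent.P097F.S
open Vale.Agent.P097D (Lo)
open Vale.Agent.P097EE (C2 Spec_E2)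

/-- the output of layer C: the machines and the patches of their obstacles -/
def OutC (𝒰 : Filter ℕ) (ε : ℕ → ℝ) (θ h : ℕ → ℂ → ℂ) (U : ℕ → Set ℂ) (a L : ℝ)
    (v H : ℕ → ℝ) (F : ℕ → C2 → ℂ) : Prop :=
  ∃ (K C₁ C₂ : ℝ) (ς : ℕ → ℝ) (D : ℕ → Md) (α x₀ : ℕ → ℂ),
    SE.LC 𝒰 ε θ h U a L v H F K C₁ C₂ ς D α x₀ ∧
    ∀ c : ℕ, (∀ᶠ n in 𝒰, c < (D n).M) → ∃ (Ξ : ℕ → C2 → C2) (P₀ : C2) (s B : ℝ),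
      closedBall P₀.1 s ⊆ Lo 0 ∧ ∀ᶠ n in 𝒰, G.Cc (θ n) (ε n) (D n) c (Ξ n) P₀ s B

/-- **layer C**: the hypotheses of `Spec_TRUE` give the machines -/
def Spec_LC : Prop := ∃ C₁ : ℝ, 0 < C₁ ∧ ∀ (𝒰 : Ultrafilter ℕ) (ε : ℕ → ℝ)
  (θ h Q : ℕ → ℂ → ℂ) (c : ℕ → ℂ) (U : ℕ → Set ℂ) (E : D.Dat) (Y : ℂ × ℂ → ℂ)
  (a L ρ K C : ℝ) (v H b : ℕ → ℝ) (W H₀ b₀ : ℝ) (F : ℕ → ℂ × ℂ → ℂ) (F₀ : ℂ × ℂ → ℂ)
  (σ ρ' : ℝ) (n : ℕ) (X : Fin n → ℂ → ℂ) (Φ Δ : Fin n → ℂ × ℂ → ℂ),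
  P097Mo.Seq 𝒰 (fun j => (ε j : ℂ)) θ h Q c U E.g (Lo 0) → (∀ j, 0 < ε j) → (∀ j, U j ⊆ Lo 0) →
  (∃ y ∈ Lo 0, E.g y ≠ 0) → D.SZ E.g → D.Mx E Y → E.α = a - L → E.β = a + L →
  E.b₁ = E.b₀ + 1 → Loc 𝒰 ε θ h U a L (-E.b₀) ρ K C v H b W H₀ b₀ F F₀ →
  ball (W : ℂ) ρ ⊆ E.U → EqOn F₀ E.A (ball (W : ℂ) ρ ×ˢ D.Rc E.α E.β E.b₀ E.b₁) →
  D.Obs E Y W H₀ (a - L + 1) (a + L - 1) σ ρ' n X Φ Δ → D.Lev W σ X →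
  (∀ c c', c ≠ c' → deriv (fun w => (X c' w - X c w) / w) W ≠ 0) →
  1 ≤ W → C₁ * C * W ≤ L → OutC 𝒰 ε θ h U a L v H F

theorem true_of (hC : Spec_LC) (hR : S_RUN) (h1 : S_PS) (h2 : S_PG) (h3 : S_TUB) (h4 : S_LEVO)
    (h5 : S_LIN) (h6 : Spec_NQ) (hE : Spec_E2) (hG : S_GR) (hP : S_GAP) (hF : S_FARG)
    (hO : S_FARO) (hN : G.S_NEAR) : Spec_TRUE := by
  obtain ⟨C₀, c0, hC⟩ := hC
  refine ⟨C₀, c0, fun 𝒰 ε θ h Q c U E Y a L ρ K₀ C v H b W H₀ b₀ F F₀ σ ρ' n X Φ Δ s e0 u1 u2 u3 u4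
    u5 u6 u7 l u8 u9 u10 u11 u12 W1 u13 => ?_⟩
  obtain ⟨K, C₁, C₂, ς, D, α, x₀, lc, ob⟩ := hC 𝒰 ε θ h Q c U E Y a L ρ K₀ C v H b W H₀ b₀ F F₀
    σ ρ' n X Φ Δ s e0 u1 u2 u3 u4 u5 u6 u7 l u8 u9 u10 u11 u12 W1 u13
  have c2 := lc.c2
  have c1 : 0 ≤ C₁ := by
    obtain ⟨n, m, e, -⟩ := lc.ma.exists
    exact e ▸ m.num.C1.1
  have q0 : 0 < 6 * C₂ + 2 * C₁ + 4 := by positivity
  have l0 : 0 < SE.lam C₁ C₂ := by unfold SE.lam; positivity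
  have kc := lc.KC
  have l1' : SE.lam C₁ C₂ * (6 * C₂ + 2 * C₁ + 4) = 1 := by unfold SE.lam; field_simp
  have a1 : 1 ≤ K * SE.lam C₁ C₂ := by nlinarith
  have a2 : SE.lam C₁ C₂ ≤ K := by nlinarith
  obtain ⟨K₁, K₂, c₀, R⟩ := hR h1 h2 h3 h4 h5 h6 𝒰 K _ ς D a1 a2 lc.s0 (lc.ma.mono fun n m => m.1)
  refine SE.seamE hE hG hP hF hO s e0 l (by linarith) lc R (β := 3) le_rfl fun c' na => ?_
  obtain ⟨Ξ, P₀, s', B, p1, p2⟩ := ob c' (na.mono fun n m => m.1)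
  have ee : (fun j => (ε j : ℂ)) = fun j => (ep (ς j) : ℂ) := funext fun j => by rw [lc.eq j]
  refine hN 𝒰 K K₁ K₂ c₀ _ s' B ς θ h Q c U E.g (Lo 0) D (fun _ => c') _ _ Ξ P₀ 3 (ee ▸ s) p1 R
    lc.con le_rfl ?_
  filter_upwards [na, p2, lc.ma] with n ⟨b1, _, _, b4, b5, _, b7⟩ b8 ⟨m, _⟩
  have hl := (m.num.hl c' b1).le
  have l2 : 0 ≤ l1 (ς n) := by have := m.num.ς0; unfold l1; positivity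
  have e1 := b5 _ le_rfl hl
  have e2 := b5 _ hl le_rfl
  refine ⟨b1, rfl, rfl, by linarith, by nlinarith, by nlinarith, by nlinarith, lc.eq n ▸ b8⟩

end Vale.Agent.P097F
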