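import Vale.Agent.P097Top.AsmM
import Vale.Agent.P097S.Cb
import Vale.Agent.P097M.All
import Vale.Agent.P097E.Poly

/-!
# P097F: the last step of the tree
-/

set_option linter.all false

noncomputable section

namespace Vale.Agent.P097F

open Filter Topology Set Metric Complex Vale.Agent.P097 Vale.Agent.P097T Vale.Agent.P097Top EB EA

/-- there is no counterexample -/
def Spec_FULL : Prop := ∀ (h : ℝ → ℝ) (ε : ℝ) (ψ δ : ℝ × ℝ → ℝ) (r c : ℝ) (θ H Q : ℂ → ℂ),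
  Gm.NF h ε ψ δ → Cur r c θ H Q → Agr h ψ θ H → NatB r θ → False

/-- an odd leaf without regular boundary point -/
theorem odd_leaf {h : ℝ → ℝ} {ε : ℝ} {ψ δ : ℝ × ℝ → ℝ} {r c : ℝ} {θ H Q : ℂ → ℂ}
    (N : Gm.NF h ε ψ δ) (C : Cur r c θ H Q) (A : Agr h ψ θ H) (B : NatB r θ) :
    ∃ (n : ℕ) (T : ℝ) (Y φ p : ℂ → ℂ), LeafD r c θ H n T Y φ p ∧ NoReg r n T Y := by
  obtain ⟨κ, Y₀, S, k1, k2, e⟩ := y0 rl h ε ψ δ r c θ H Q N C A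
  obtain ⟨n₀, L⟩ := leaf rl (lf2f rl germ) wr h ε ψ δ r c θ H Q N C A
  obtain ⟨m, hm⟩ := exists_nat_one_div_lt S.pos
  set n : ℕ := 2 * (n₀ + m) + 1 with hn
  have n0 : (0 : ℝ) < 1 / n := by positivity
  have n1 : (1 : ℝ) / n < κ := lt_of_le_of_lt
    (one_div_le_one_div_of_le (by positivity) (by rw [hn]; push_cast; nlinarith [
      (Nat.cast_nonneg n₀ : (0 : ℝ) ≤ n₀), (Nat.cast_nonneg m : (0 : ℝ) ≤ m)])) hm
  obtain ⟨l1, l2, l3⟩ := L n (by omega) ⟨n₀ + m, hn⟩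
  obtain ⟨T, Y, F, mx⟩ := sup2 rl germ (lf2f rl germ) h ε ψ δ r c (1 / n) κ θ H Q Y₀ N C A n0 l1
    (lf2_of S k2 e (by rwa [abs_of_pos n0]))
  obtain ⟨φ, p, D'⟩ := l3 T Y F
  exact ⟨n, T, _, φ, p, D', noreg' h ε ψ δ r c T θ H Q φ p n Y N C A B l1 l2 F mx D'⟩

/-- the linear loss is impossible -/
theorem not_eta {h : ℝ → ℝ} {ε : ℝ} {ψ δ : ℝ × ℝ → ℝ} {r c : ℝ} {θ H Q : ℂ → ℂ}
    (N : Gm.NF h ε ψ δ) (C : Cur r c θ H Q) (A : Agr h ψ θ H) (B : NatB r θ) :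
    ¬ P097M.Eta θ H r :=
  fun E => P097S.mom_false P097S.cb N C A B (P097M.h2 r c θ H Q C E)

/-- there is no good cone with moving vertex -/
theorem not_mv {h : ℝ → ℝ} {ε : ℝ} {ψ δ : ℝ × ℝ → ℝ} {r c : ℝ} {θ H Q : ℂ → ℂ}
    (N : Gm.NF h ε ψ δ) (C : Cur r c θ H Q) (A : Agr h ψ θ H) (B : NatB r θ) :
    ¬ P097S.Mv r θ Q :=
  P097S.stM P097S.cb P097M.h2 N C A B

open Vale.Agent.P097B.Arc

theorem full_of (X : Spec_FULL) (Ω : Set ℂ) (L : ℝ) (Γ : ℝ → ℂ) (T : Table Ω L Γ)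
    (F : Filled L Γ) : IsEllipse Ω := by
  by_contra n
  obtain ⟨hT, hI⟩ := intBd T F
  obtain ⟨ε, c, r, ψ, δ, θ, H, Q, N, -, A, C, B⟩ := base hT hI fun m => n ((dict T).2.2.2 m)
  exact X _ ε ψ δ r c θ H Q N C A B

end Vale.Agent.P097F
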