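import Vale.Agent.P097F.Fam
import Vale.Agent.P097O.Spec3

/-!
# P097F: the dichotomy at the top of the tree
-/

set_option linter.all false

noncomputable section

namespace Vale.Agent.P097F

open Filter Topology Set Metric Complex Vale.Agent.P097 Vale.Agent.P097T Vale.Agent.P097Top EB EA

theorem pg_of {r : ℝ} {p : ℕ} {θ Q : ℂ → ℂ} (r0 : 0 < r) (P : P097E.Pol r p θ Q) :
    P097O.PG r (deriv θ) := by
  obtain ⟨C, P⟩ := P
  refine ⟨p + 1, max 0 (Real.log (|C| * (2 * r) ^ p + 1)), by simp, fun L hL y m k => ?_⟩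
  have m' : |y.im| < r := m
  have t0 : 0 < dp r y := sub_pos.2 m'
  have e : P097C.dd r y ≤ dp r y * (2 * r) := by
    have : P097C.dd r y = dp r y * (r + |y.im|) := by
      rw [P097C.dd, dp, ← sq_abs y.im]
      ring
    rw [this]
    gcongr
    linarith
  have h1 : ‖deriv θ y‖ * Real.exp (-L) ^ p ≤ |C| * (2 * r) ^ p := by
    calc _ ≤ ‖deriv θ y‖ * (dp r y * (2 * r)) ^ p := by gcongr; exact k.trans e
      _ = ‖deriv θ y‖ * dp r y ^ p * (2 * r) ^ p := by rw [mul_pow, mul_assoc]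
      _ ≤ _ := by gcongr; exact (P y m).1.trans (le_abs_self C)
  have h2 : |C| * (2 * r) ^ p + 1 ≤ Real.exp L :=
    (Real.log_le_iff_le_exp (by positivity)).1 (le_of_max_le_right hL)
  have h3 : Real.exp ((p + 1) * L) * Real.exp (-L) ^ p = Real.exp L := by
    rw [← Real.exp_nat_mul, ← Real.exp_add]
    congr 1
    ring
  refine le_of_mul_le_mul_right ?_ (pow_pos (Real.exp_pos (-L)) p)
  rw [h3]
  linarith

/-- the data of a counterexample -/
structure Dat (r c κ u₀ : ℝ) (p : ℕ) (θ H Q : ℂ → ℂ) (Y₀ : ℂ × ℂ → ℂ) (η : ℝ → ℝ)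
    (Y : ℝ → ℂ × ℂ → ℂ) : Prop where
  cur : Cur r c θ H Q
  fam : Fam r κ u₀ θ H Y₀ η Y
  pol : P097E.Pol r p θ Q
  nat : NatB r θ
  big : ¬ P097M.Eta θ H r

/-- the moderate band is thin -/
def Spec_BD : Prop := ∀ r c κ u₀ p θ H Q Y₀ η Y, Dat r c κ u₀ p θ H Q Y₀ η Y →
  P097O.BDA r (deriv θ)

/-- the turning is small -/
def Spec_TH : Prop := ∀ r c κ u₀ p θ H Q Y₀ η Y, Dat r c κ u₀ p θ H Q Y₀ η Y →
  P097O.THB r (deriv θ)

theorem full_of3 (C3 : P097O.S_CORE3) (BD : Spec_BD) (TH : Spec_TH) : Spec_FULL := by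
  intro h ε ψ δ r c θ H Q N C A B
  obtain ⟨κ, u₀, Y₀, η, Y, F⟩ := fam N C A B
  obtain ⟨p, hp⟩ := P097E.poly
  have D : Dat r c κ u₀ p θ H Q Y₀ η Y :=
    ⟨C, F, hp r c κ θ H Q Y₀ C F.sol F.two, B, not_eta N C A B⟩
  obtain ⟨n, T, Z, φ, q, L, R⟩ := odd_leaf N C A B
  exact C3 r c T θ H Q Z φ q n C (pg_of C.rpos D.pol) (TH _ _ _ _ _ _ _ _ _ _ _ D)
    (BD _ _ _ _ _ _ _ _ _ _ _ D) L R

variable {r c κ u₀ : ℝ} {p : ℕ} {θ H Q : ℂ → ℂ} {Y₀ : ℂ × ℂ → ℂ} {η : ℝ → ℝ} {Y : ℝ → ℂ × ℂ → ℂ}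

/-- the loss is at most a power of the step -/
theorem Dat.pw (D : Dat r c κ u₀ p θ H Q Y₀ η Y) :
    ∃ C : ℝ, ∀ v ∈ Ioo 0 u₀, η v ^ (p + 1) ≤ C * v := by
  obtain ⟨c₁, c1, act⟩ := D.fam.act D.cur one_pos le_rfl
  obtain ⟨C, P⟩ := D.pol
  have r0 := D.cur.rpos
  obtain ⟨B, B1, B2, B3⟩ : ∃ B : ℝ, r ^ p ≤ B ∧ |C| * r ≤ B ∧ |C| * r ^ 2 ≤ B ^ 2 := by
    refine ⟨r ^ p + (|C| + 1) * r, by nlinarith [abs_nonneg C], by nlinarith [pow_pos r0 p], ?_⟩
    have h1 : (|C| + 1) * r ≤ r ^ p + (|C| + 1) * r := by linarith [pow_pos r0 p]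
    have h2 := pow_le_pow_left₀ (by positivity) h1 2
    nlinarith [abs_nonneg C, sq_nonneg r, mul_nonneg (sq_nonneg |C|) (sq_nonneg r),
      mul_nonneg (abs_nonneg C) (sq_nonneg r)]
  have B0 : 0 < B := (pow_pos r0 p).trans_le B1
  refine ⟨32 ^ (p + 1) * B / c₁, fun v m => ?_⟩
  by_contra k
  push Not at k
  have v0 := m.1
  have e0 : 0 < η v := by
    rcases (D.fam.nn v m).eq_or_lt with e | e
    · rw [← e, zero_pow (by omega)] at k
      exact (k.not_ge (by positivity)).elim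
    · exact e
  set d := η v / 32 with hd
  have d0 : 0 < d := by positivity
  have d1 : d ≤ r := by linarith [D.fam.low v m, D.fam.sol.pos]
  have dp0 := pow_pos d0 p
  have A1 : 1 ≤ B / d ^ p := by
    rw [le_div_iff₀ dp0, one_mul]
    exact (pow_le_pow_left₀ d0.le d1 p).trans B1
  have := act v m 0 d (B / d ^ p) d0 d1 A1 (fun y ⟨y1, y2, _⟩ => ?_) ?_
  · linarith
  · have t1 : r - y.im ≤ r := by linarith
    have t0 : 0 < r - y.im := d0.trans y2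
    have e : dp r y = r - y.im := by rw [dp, abs_of_pos y1]
    obtain ⟨p1, p2⟩ := P y (show |y.im| < r by rw [abs_of_pos y1]; linarith)
    rw [e] at p1 p2
    have q0 : d ^ p ≤ (r - y.im) ^ p := pow_le_pow_left₀ d0.le y2.le p
    have q1 : ‖deriv θ y‖ * (r - y.im) ≤ B / d ^ p := by
      rw [le_div_iff₀ dp0]
      calc _ ≤ ‖deriv θ y‖ * r * (r - y.im) ^ p := by gcongr
        _ = ‖deriv θ y‖ * (r - y.im) ^ p * r := by ring
        _ ≤ |C| * r := by gcongr; exact p1.trans (le_abs_self C)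
        _ ≤ B := B2
    have q2 : ‖Q y‖ * (r - y.im) ^ 2 ≤ (B / d ^ p) ^ 2 := by
      rw [div_pow, le_div_iff₀ (by positivity)]
      calc _ ≤ ‖Q y‖ * r ^ 2 * ((r - y.im) ^ p) ^ 2 := by gcongr
        _ = ‖Q y‖ * (r - y.im) ^ (2 * p) * r ^ 2 := by ring
        _ ≤ |C| * r ^ 2 := by gcongr; exact p2.trans (le_abs_self C)
        _ ≤ B ^ 2 := B3
    constructor
    · gcongr
    · rw [show (B / d ^ p) ^ 4 = ((B / d ^ p) ^ 2) ^ 2 by ring]
      gcongr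
  · rw [mul_div_assoc', div_le_iff₀ dp0]
    rw [div_mul_eq_mul_div, div_lt_iff₀ c1, show η v = 32 * d by rw [hd]; ring, mul_pow] at k
    have h2 : (0 : ℝ) < 32 ^ (p + 1) := by positivity
    have : B * v ≤ d ^ (p + 1) * c₁ := le_of_mul_le_mul_left (by nlinarith) h2
    rw [pow_succ] at this
    linarith

end Vale.Agent.P097F
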