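import Vale.Agent.P097F.Cm
import Vale.Agent.P097O.Core3

/-!
# P097F: the theorem from the blocks
-/

set_option linter.all false

noncomputable section

namespace Vale.Agent.P097F

theorem full_all (hBD : Spec_BD) (hD : Spec_DICH) (hA : Spec_A) (hLIM : Spec_LIM) (hB : Spec_B)
    (hBASE : Spec_BASE) (hLEAF : Spec_LEAF) (hH : Spec_H) (hL : Spec_L) (hO : Spec_OBS2)
    (hT : Spec_T) (hTR : Spec_TRUE) : Spec_FULL :=
  full_of3 P097O.core3 hBD (th_of hD (cm_of hA hLIM hB hBASE hLEAF hH hL hO hT hTR))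

end Vale.Agent.P097F
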