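import Vale.Agent.P097F.Top2
import Vale.Agent.P097O.BandAll
import Vale.Agent.P097F.V.All
import Vale.Agent.P097F.A.Main
import Vale.Agent.P097F.U.Lim
import Vale.Agent.P097F.B.Fin
import Vale.Agent.P097F.L.BaseAll
import Vale.Agent.P097F.D.Obs2
import Vale.Agent.P097F.TS.All

/-!
# P097F: the theorem from the remaining blocks
-/

namespace Vale.Agent.P097F

theorem full_of_rest (hH : Spec_H) (hL : Spec_L) (hTR : Spec_TRUE) : Spec_FULL :=
  full_all P097O.bd V.specDICH A.specA specLIM blockB L.base L.leafS hH hL obs2 TS.blockT hTR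

end Vale.Agent.P097F
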