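import Vale.Agent.P097F.Top3
import Vale.Agent.P097F.H.All
import Vale.Agent.P097F.TS.BlockL

/-!
# P097F: the theorem from the local contradiction
-/

namespace Vale.Agent.P097F

theorem full_of_true (hTR : Spec_TRUE) : Spec_FULL := full_of_rest H.specH TS.blockL hTR

end Vale.Agent.P097F
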