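import Vale.Agent.P097F.Top4
import Vale.Agent.P097F.Top5
import Vale.Agent.P097F.S.Run
import Vale.Agent.P097F.S.Gr
import Vale.Agent.P097F.S.Gap
import Vale.Agent.P097F.S.Cht
import Vale.Agent.P097F.S.Fol
import Vale.Agent.P097F.S.Far
import Vale.Agent.P097F.N.Ps
import Vale.Agent.P097F.N.Pg
import Vale.Agent.P097F.N.Tub
import Vale.Agent.P097F.N.Levo
import Vale.Agent.P097F.N.Lin
import Vale.Agent.P097Q.SAll
import Vale.Agent.P097EE.AllE
import Vale.Agent.P097EE.App

/-!
# P097F: the theorem from layer C, the output of the blocks N and Q, and the near obstacles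
-/

namespace Vale.Agent.P097F

theorem full_of3' (hC : Spec_LC) (hQ : N.Spec_NQ) (hN : G.S_NEAR) : Spec_FULL :=
  full_of_true (true_of hC S.run N.psC N.pg (N.tub P097Q.spec_EDGE) (N.levo (N.tub P097Q.spec_EDGE))
    N.lin hQ (P097EE.specE2_app P097EE.app) S.gr (S.gap S.cht) (S.farG S.fol) (S.farO S.fol) hN)

end Vale.Agent.P097F
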