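import Vale.Agent.P097F.Top6
import Vale.Agent.P097F.N.NqAll
import Vale.Agent.P097F.G.Near
import Vale.Agent.P097F.G.Pj
import Vale.Agent.P097F.G.Gt
import Vale.Agent.P097F.G.Nu
import Vale.Agent.P097F.G.Chr
import Vale.Agent.P097F.LC.Glue
import Vale.Agent.P097F.LC.Ob

/-!
# P097F: everything from the rows of layer C and the type of an obstacle
-/

set_option linter.all false

namespace Vale.Agent.P097F

theorem full_of_lc (hC : Spec_LC) (hA : G.S_AC) : Spec_FULL :=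
  full_of3' hC N.nqC (G.near_of G.pj G.nu G.ar G.gt G.Chr.schr hA)

open LC in
theorem full_of_rows (h2 : R_NUM) (h3 : R_CONE) (h4 : R_DEEP) (h5 : R_GAP) (h6 : R_INV)
    (h7 : R_PAT) (h8 : R_CK) (h9 : R_GEO) (h10 : R_SEP) (h11 : R_SHP) (h12 : R_HOR)
    (hA : G.S_AC) : Spec_FULL :=
  full_of_lc (lc_of ob h2 h3 h4 h5 h6 h7 h8 h9 h10 h11 h12) hA

end Vale.Agent.P097F
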