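import Vale.Agent.P097F.Top7
import Vale.Agent.P097F.G.All
import Vale.Agent.P097F.LC.Num
import Vale.Agent.P097F.LC.DeepH86
import Vale.Agent.P097F.LC.Gap
import Vale.Agent.P097F.LC.Hor
import Vale.Agent.P097F.LC.PatH19
import Vale.Agent.P097F.LC.Sep
import Vale.Agent.P097F.LC.Og
import Vale.Agent.P097F.LC.Cone
import Vale.Agent.P097F.LC.CkH53
import Vale.Agent.P097F.LC.InvH82

/-!
# P097F: there is no counterexample
-/

set_option linter.all false

namespace Vale.Agent.P097F

open LC in
theorem full_of_inv (h6 : R_INV) : Spec_FULL :=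
  full_of3' (lc_of ob num (cone hor) H86.deep gap h6 H19.pat H53.ck geo (sep Gq.sl) (shp hor) hor)
    N.nqC G.nearC

theorem specFULL : Spec_FULL := full_of_inv LC.H82.inv

end Vale.Agent.P097F
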