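import Vale.Agent.P097F.Top7
import Vale.Agent.P097F.G.All
import Vale.Agent.P097F.LC.Num
import Vale.Agent.P097F.LC.DeepH86
import Vale.Agent.P097F.LC.InvH82
import Vale.Agent.P097F.LC.Hor
import Vale.Agent.P097F.LC.PatH19
import Vale.Agent.P097F.LC.Sep
import Vale.Agent.P097F.LC.Og
import Vale.Agent.P097F.LC.Cone
import Vale.Agent.P097F.LC.CkH53

/-!
# P097F: everything is closed
-/

set_option linter.all false

namespace Vale.Agent.P097F

open LC in
theorem fullC : Spec_FULL :=
  full_of3' (lc_of ob num (cone hor) H86.deep gap H82.inv H19.pat H53.ck geo (sep Gq.sl) (shp hor) hor)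
    N.nqC G.nearC

end Vale.Agent.P097F
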